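import Vale.Agent.P130.FactorPair

/-!
P130: in a system with simple Lebesgue spectrum any two nontrivial factors share a nontrivial set,
and no factor is a product.
-/

namespace Vale.Agent.Results.P130.CommonFactor

open MeasureTheory
open scoped ComplexConjugate

theorem result : ∀ (Z : Type) [MeasurableSpace Z] (ρ : Measure Z) [IsProbabilityMeasure ρ]
    (T : Z ≃ᵐ Z) (f : Z → ℂ), MeasurePreserving T ρ ρ → MemLp f 2 ρ → ∫ z, f z ∂ρ = 0 →
    (∀ i j : ℤ, ∫ z, conj (f ((T.toEquiv ^ i : Equiv.Perm Z) z)) *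
      f ((T.toEquiv ^ j : Equiv.Perm Z) z) ∂ρ = if i = j then 1 else 0) →
    (∀ g : Z → ℂ, MemLp g 2 ρ → ∫ z, g z ∂ρ = 0 →
      (∀ i : ℤ, ∫ z, conj (f ((T.toEquiv ^ i : Equiv.Perm Z) z)) * g z ∂ρ = 0) → g =ᵐ[ρ] 0) →
    ∀ (X Y : Type) [MeasurableSpace X] [MeasurableSpace Y] (μ : Measure X) (ν : Measure Y)
      [IsProbabilityMeasure μ] [IsProbabilityMeasure ν] (S : X ≃ᵐ X) (S' : Y ≃ᵐ Y),
      MeasurePreserving S μ μ → MeasurePreserving S' ν ν →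
      (∃ A, MeasurableSet A ∧ 0 < μ A ∧ μ A < 1) → (∃ B, MeasurableSet B ∧ 0 < ν B ∧ ν B < 1) →
      (∀ (π : Z → X) (π' : Z → Y), MeasurePreserving π ρ μ → MeasurePreserving π' ρ ν →
        (∀ᵐ z ∂ρ, π (T z) = S (π z)) → (∀ᵐ z ∂ρ, π' (T z) = S' (π' z)) →
        ∃ (A : Set X) (B : Set Y), MeasurableSet A ∧ MeasurableSet B ∧
          ρ (symmDiff (π ⁻¹' A) (π' ⁻¹' B)) = 0 ∧ 0 < μ A ∧ μ A < 1) ∧
      ¬ ∃ p : Z → X × Y, MeasurePreserving p ρ (μ.prod ν) ∧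
        ∀ᵐ z ∂ρ, p (T z) = (S (p z).1, S' (p z).2) := by
  intro Z _ ρ _ T f hT hf hf0 ho hc X Y _ _ μ ν _ _ S S' hS hS' ⟨A, hA, hA0, hA1⟩ ⟨B, hBm, hB0, hB1⟩
  have hB : Vale.Agent.P130.Basic ρ T.toEquiv f :=
    ⟨fun k => Vale.Agent.P130.measurePreserving_zpow T hT k, hf, hf0, ho, hc⟩
  refine ⟨fun π π' hπ hπ' hπT hπT' => Vale.Agent.P130.exists_common_set hB S S' hS hS' hπ hπ'
    (Vale.Agent.P130.ae_equivariant_zpow T S hT hπT)
    (Vale.Agent.P130.ae_equivariant_zpow T S' hT hπT') hA hA0 hA1 hBm hB0 hB1, ?_⟩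
  rintro ⟨p, hp, hpT⟩
  have h1 : ∀ᵐ z ∂ρ, (p (T z)).1 = S (p z).1 := by
    filter_upwards [hpT] with z hz
    rw [hz]
  have h2 : ∀ᵐ z ∂ρ, (p (T z)).2 = S' (p z).2 := by
    filter_upwards [hpT] with z hz
    rw [hz]
  exact Vale.Agent.P130.no_independent_factors hB S S' hS hS'
    (Vale.Agent.P130.ae_equivariant_zpow T S hT (π := fun z => (p z).1) h1)
    (Vale.Agent.P130.ae_equivariant_zpow T S' hT (π := fun z => (p z).2) h2) hp
    hA (ENNReal.toReal_pos hA0.ne' (measure_ne_top _ _))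
    (by simpa [Measure.real] using
      (ENNReal.toReal_lt_toReal (measure_ne_top _ _) ENNReal.one_ne_top).2 hA1)
    hBm (ENNReal.toReal_pos hB0.ne' (measure_ne_top _ _))
    (by simpa [Measure.real] using
      (ENNReal.toReal_lt_toReal (measure_ne_top _ _) ENNReal.one_ne_top).2 hB1)

end Vale.Agent.Results.P130.CommonFactor
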